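import Mathlib

/-! # P229 block D1 (linear strip solver): definitions.

All functions of `(p, y)` are given by explicit jets in `p`: `f n p y` is the `n`-th `p`-derivative.
Everything lives on the closed strip `-Y ≤ y ≤ Y`, and is `8`-periodic in `p`. -/

open Set

namespace P229.D1

/-- `8`-periodic in `p`, smooth in `p`, all `p`-derivatives jointly continuous on `ℝ × [-Y, Y]` -/
structure PJet (Y : ℝ) (f : ℕ → ℝ → ℝ → ℝ) : Prop where
  cont : ∀ n, ContinuousOn (fun z : ℝ × ℝ => f n z.1 z.2) (univ ×ˢ Icc (-Y) Y)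
  per : ∀ n p, ∀ y ∈ Icc (-Y) Y, f n (p + 8) y = f n p y
  der : ∀ n p, ∀ y ∈ Icc (-Y) Y, HasDerivAt (fun p => f n p y) (f (n + 1) p y) p

/-- smooth `8`-periodic functions of `p` -/
structure BJet (F : ℕ → ℝ → ℝ) : Prop where
  per : ∀ n p, F n (p + 8) = F n p
  der : ∀ n p, HasDerivAt (F n) (F (n + 1) p) p

/-- the frequencies `2 π k / 8` -/
noncomputable def om (k : ℤ) : ℝ := Real.pi * k / 4

/-- the exponentials `exp (i ω_k p)` -/
noncomputable def ex (k : ℤ) (p : ℝ) : ℂ := Complex.exp (Complex.I * (om k * p : ℝ))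

/-- Fourier coefficients of an `8`-periodic function -/
noncomputable def cf (g : ℝ → ℝ) (k : ℤ) : ℂ :=
  (1 / 8 : ℂ) * ∫ p in (0 : ℝ)..8, ex (-k) p * (g p : ℂ)

/-- rapidly decreasing families of continuous functions on `[-Y, Y]` -/
structure Rap (Y : ℝ) (a : ℤ → ℝ → ℂ) : Prop where
  cont : ∀ k, ContinuousOn (a k) (Icc (-Y) Y)
  dec : ∀ m : ℕ, ∃ C : ℝ, ∀ k : ℤ, ∀ y ∈ Icc (-Y) Y, (1 + |(k : ℝ)|) ^ m * ‖a k y‖ ≤ C

/-- the `n`-th `p`-derivative of the function with coefficients `a` -/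
noncomputable def sj (a : ℤ → ℝ → ℂ) (n : ℕ) (p y : ℝ) : ℂ :=
  ∑' k : ℤ, (Complex.I * (om k : ℂ)) ^ n * a k y * ex k p

end P229.D1
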