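import Vale.Agent.P229.D1.Basic
import Vale.Agent.P371.G.Ode

/-! # P229 block D1, module BVP: the Dirichlet problem `w'' = q w + g` on `[-Y, Y]`, `q ≥ 0`.

Existence by shooting with `P371Ode.exists_global`; bound by the one dimensional maximum principle. -/

open Set Filter Topology

namespace P229.D1

open scoped NNReal

/-- initial value problem (in any Banach space `E`); use `P371Ode.exists_global` on `E × E` with `q, g`
replaced by their compositions with `projIcc` -/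
theorem ivp {E : Type} [NormedAddCommGroup E] [NormedSpace ℝ E] [CompleteSpace E] {Y : ℝ}
    (hY : 0 < Y) {q : ℝ → ℝ} (hq : ContinuousOn q (Icc (-Y) Y)) {g : ℝ → E}
    (hg : ContinuousOn g (Icc (-Y) Y)) (a b : E) :
    ∃ w v : ℝ → E, w (-Y) = a ∧ v (-Y) = b ∧
      (∀ y ∈ Icc (-Y) Y, HasDerivWithinAt w (v y) (Icc (-Y) Y) y) ∧
      (∀ y ∈ Icc (-Y) Y, HasDerivWithinAt v (q y • w y + g y) (Icc (-Y) Y) y) := by
  have hle : -Y ≤ Y := by linarith
  set q' : ℝ → ℝ := IccExtend hle ((Icc (-Y) Y).domRestrict q) with hq'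
  set g' : ℝ → E := IccExtend hle ((Icc (-Y) Y).domRestrict g) with hg'
  have hqc : Continuous q' := (continuousOn_iff_continuous_domRestrict.1 hq).Icc_extend'
  have hgc : Continuous g' := (continuousOn_iff_continuous_domRestrict.1 hg).Icc_extend'
  have hqe : ∀ y ∈ Icc (-Y) Y, q' y = q y := fun y hy => by
    rw [hq', IccExtend_of_mem _ _ hy]
    rfl
  have hge : ∀ y ∈ Icc (-Y) Y, g' y = g y := fun y hy => by
    rw [hg', IccExtend_of_mem _ _ hy]
    rfl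
  obtain ⟨Q, hQ⟩ := (isCompact_Icc (a := -Y) (b := Y)).exists_bound_of_continuousOn hq
  have hQ' : ∀ y, ‖q' y‖ ≤ max Q 1 := fun y => by
    have h1 : q' y = q (projIcc (-Y) Y hle y) := rfl
    rw [h1]
    exact (hQ _ (projIcc (-Y) Y hle y).2).trans (le_max_left _ _)
  have hQ1 : 0 ≤ max Q 1 := zero_le_one.trans (le_max_right _ _)
  set K : ℝ≥0 := ⟨max Q 1, hQ1⟩ with hK
  set W : ℝ → E × E → E × E := fun x z => (z.2, q' x • z.1 + g' x) with hW
  have hWc : Continuous fun p : ℝ × (E × E) => W p.1 p.2 := by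
    refine Continuous.prodMk (continuous_snd.comp continuous_snd) ?_
    exact ((hqc.comp continuous_fst).smul (continuous_fst.comp continuous_snd)).add
      (hgc.comp continuous_fst)
  have hWK : ∀ x, LipschitzWith K (W x) := fun x => by
    refine LipschitzWith.of_dist_le_mul fun z z' => ?_
    rw [dist_eq_norm, dist_eq_norm]
    have h1 : W x z - W x z' = ((z - z').2, q' x • (z - z').1) := by
      rw [hW]
      refine Prod.ext rfl ?_
      show q' x • z.1 + g' x - (q' x • z'.1 + g' x) = q' x • (z.1 - z'.1)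
      rw [smul_sub]
      abel
    have h2 : ‖(z - z').1‖ ≤ ‖z - z'‖ := norm_fst_le _
    have h3 : ‖(z - z').2‖ ≤ ‖z - z'‖ := norm_snd_le _
    have hKr : (K : ℝ) = max Q 1 := rfl
    rw [h1, Prod.norm_def, hKr]
    refine max_le ?_ ?_
    · have h4 : (1 : ℝ) ≤ max Q 1 := le_max_right _ _
      have h5 := norm_nonneg (z - z')
      calc ‖(z - z').2‖ ≤ 1 * ‖z - z'‖ := by rw [one_mul]; exact h3
        _ ≤ max Q 1 * ‖z - z'‖ := mul_le_mul_of_nonneg_right h4 h5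
    · show ‖q' x • (z - z').1‖ ≤ _
      rw [norm_smul]
      exact mul_le_mul (hQ' x) h2 (norm_nonneg _) hQ1
  obtain ⟨y, hy0, hy⟩ := P371Ode.exists_global (-Y) Y hle W (a, b) K hWc hWK
  refine ⟨fun x => (y x).1, fun x => (y x).2, by simp only [hy0], by simp only [hy0], ?_, ?_⟩
  · intro x hx
    exact (ContinuousLinearMap.fst ℝ E E).hasFDerivAt.comp_hasDerivWithinAt x (hy x hx)
  · intro x hx
    have h1 := (ContinuousLinearMap.snd ℝ E E).hasFDerivAt.comp_hasDerivWithinAt x (hy x hx)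
    have h2 : (ContinuousLinearMap.snd ℝ E E) (W x (y x)) = q x • (y x).1 + g x := by
      show q' x • (y x).1 + g' x = _
      rw [hqe x hx, hge x hx]
    rw [h2] at h1
    exact h1

private theorem bvp_interior {Y : ℝ} {f : ℝ → ℝ} {f' x : ℝ} (hx : x ∈ Ioo (-Y) Y)
    (h : HasDerivWithinAt f f' (Icc (-Y) Y) x) : HasDerivAt f f' x :=
  h.hasDerivAt (Icc_mem_nhds hx.1 hx.2)

/-- one dimensional maximum principle, complex valued.  (Fix `y0`, multiply by a unimodular constant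
so that `w y0 ≥ 0`, and use the real part `h`: `h + (M + δ) y² / 2` has no interior maximum at a point
with `h ≥ 0`.) -/
theorem ode_bound {Y : ℝ} (hY : 0 < Y) {q : ℝ → ℝ} (hq0 : ∀ y ∈ Icc (-Y) Y, 0 ≤ q y)
    {g w v : ℝ → ℂ} {A M : ℝ} 
    (hw : ∀ y ∈ Icc (-Y) Y, HasDerivWithinAt w (v y) (Icc (-Y) Y) y)
    (hv : ∀ y ∈ Icc (-Y) Y, HasDerivWithinAt v (q y • w y + g y) (Icc (-Y) Y) y)
    (ha : ‖w (-Y)‖ ≤ A) (hb : ‖w Y‖ ≤ A) (hM : ∀ y ∈ Icc (-Y) Y, ‖g y‖ ≤ M) :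
    ∀ y ∈ Icc (-Y) Y, ‖w y‖ ≤ A + Y ^ 2 / 2 * M := by
  intro y0 hy0
  have hA : 0 ≤ A := (norm_nonneg _).trans ha
  have hM0 : 0 ≤ M := (norm_nonneg _).trans (hM y0 hy0)
  by_contra hcon
  push Not at hcon
  have hw0 : w y0 ≠ 0 := by
    intro h
    rw [h, norm_zero] at hcon
    have : 0 ≤ Y ^ 2 / 2 * M := by positivity
    linarith
  have hn0 : (‖w y0‖ : ℂ) ≠ 0 := by
    exact_mod_cast (norm_ne_zero_iff.2 hw0)
  -- the unimodular constant
  set c : ℂ := (starRingEnd ℂ) (w y0) / ‖w y0‖ with hc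
  have hcn : ‖c‖ = 1 := by
    rw [hc, norm_div, RCLike.norm_conj, Complex.norm_real, norm_norm, div_self]
    exact norm_ne_zero_iff.2 hw0
  have hcw : (c * w y0).re = ‖w y0‖ := by
    have h1 : c * w y0 = (‖w y0‖ : ℂ) := by
      rw [hc, div_mul_eq_mul_div, ← Complex.normSq_eq_conj_mul_self, Complex.normSq_eq_norm_sq]
      push_cast
      field_simp
    rw [h1, Complex.ofReal_re]
  have hcre : ∀ z : ℂ, |(c * z).re| ≤ ‖z‖ := fun z => by
    have h1 := Complex.abs_re_le_norm (c * z)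
    rwa [norm_mul, hcn, one_mul] at h1
  -- `δ`
  obtain ⟨δ, hδ0, hδ⟩ : ∃ δ : ℝ, 0 < δ ∧ A + Y ^ 2 / 2 * (M + δ) < ‖w y0‖ := by
    refine ⟨(‖w y0‖ - (A + Y ^ 2 / 2 * M)) / Y ^ 2, by
      have : 0 < Y ^ 2 := by positivity
      exact div_pos (by linarith) this, ?_⟩
    have hY2 : Y ^ 2 ≠ 0 := by positivity
    have h1 : Y ^ 2 / 2 * (M + (‖w y0‖ - (A + Y ^ 2 / 2 * M)) / Y ^ 2) =
        Y ^ 2 / 2 * M + (‖w y0‖ - (A + Y ^ 2 / 2 * M)) / 2 := by
      field_simp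
    rw [h1]
    linarith
  -- the real functions
  set L : ℂ →L[ℝ] ℝ := Complex.reCLM.comp ((ContinuousLinearMap.mul ℝ ℂ) c) with hL
  have hLz : ∀ z, L z = (c * z).re := fun z => rfl
  set F : ℝ → ℝ := fun y => (c * w y).re + (M + δ) * y ^ 2 / 2 with hF
  set F1 : ℝ → ℝ := fun y => (c * v y).re + (M + δ) * y with hF1
  have hder : ∀ y ∈ Icc (-Y) Y, HasDerivWithinAt F (F1 y) (Icc (-Y) Y) y := fun y hy => by
    have h1 := L.hasFDerivAt.comp_hasDerivWithinAt y (hw y hy)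
    have h2 : HasDerivWithinAt (fun y : ℝ => (M + δ) * y ^ 2 / 2) ((M + δ) * y) (Icc (-Y) Y) y := by
      have h3 := (((hasDerivAt_pow 2 y).const_mul (M + δ)).div_const 2).hasDerivWithinAt
        (s := Icc (-Y) Y)
      refine h3.congr_deriv ?_
      simp only [Nat.add_one_sub_one, pow_one, Nat.cast_ofNat]
      ring
    exact h1.add h2
  have hder1 : ∀ y ∈ Icc (-Y) Y, HasDerivWithinAt F1
      ((c * (q y • w y + g y)).re + (M + δ)) (Icc (-Y) Y) y := fun y hy => by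
    have h1 := L.hasFDerivAt.comp_hasDerivWithinAt y (hv y hy)
    have h2 : HasDerivWithinAt (fun y : ℝ => (M + δ) * y) (M + δ) (Icc (-Y) Y) y := by
      have h3 := ((hasDerivAt_id y).const_mul (M + δ)).hasDerivWithinAt (s := Icc (-Y) Y)
      simpa using h3
    exact h1.add h2
  have hFc : ContinuousOn F (Icc (-Y) Y) := fun y hy => (hder y hy).continuousWithinAt
  obtain ⟨y1, hy1, hmax⟩ := isCompact_Icc.exists_isMaxOn ⟨y0, hy0⟩ hFc
  have hmax0 : F y0 ≤ F y1 := hmax hy0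
  have hF0 : ‖w y0‖ ≤ F y0 := by
    show ‖w y0‖ ≤ (c * w y0).re + (M + δ) * y0 ^ 2 / 2
    rw [hcw]
    have : 0 ≤ (M + δ) * y0 ^ 2 / 2 := by positivity
    linarith
  have hend : ∀ y, y ^ 2 = Y ^ 2 → ‖w y‖ ≤ A → F y < ‖w y0‖ := fun y hy hwy => by
    show (c * w y).re + (M + δ) * y ^ 2 / 2 < _
    have h1 := (le_abs_self _).trans (hcre (w y))
    rw [hy]
    have h2 : (M + δ) * Y ^ 2 / 2 = Y ^ 2 / 2 * (M + δ) := by ring
    rw [h2]
    linarith
  have hy1m : y1 ≠ -Y := by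
    intro h
    have := hend y1 (by rw [h]; ring) (by rw [h]; exact ha)
    linarith
  have hy1p : y1 ≠ Y := by
    intro h
    have := hend y1 (by rw [h]) (by rw [h]; exact hb)
    linarith
  have hy1' : y1 ∈ Ioo (-Y) Y := ⟨lt_of_le_of_ne hy1.1 hy1m.symm, lt_of_le_of_ne hy1.2 hy1p⟩
  have hlm : IsLocalMax F y1 := hmax.isLocalMax (Icc_mem_nhds hy1'.1 hy1'.2)
  have hdF : ∀ y ∈ Ioo (-Y) Y, HasDerivAt F (F1 y) y := fun y hy =>
    bvp_interior hy (hder y (Ioo_subset_Icc_self hy))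
  have hF1y : F1 y1 = 0 := hlm.hasDerivAt_eq_zero (hdF y1 hy1')
  have hdF1 := bvp_interior hy1' (hder1 y1 hy1)
  have hev : deriv F =ᶠ[𝓝 y1] F1 := by
    filter_upwards [Ioo_mem_nhds hy1'.1 hy1'.2] with y hy
    exact (hdF y hy).deriv
  have hdd : deriv (deriv F) y1 = (c * (q y1 • w y1 + g y1)).re + (M + δ) := by
    rw [hev.deriv_eq]
    exact hdF1.deriv
  -- positivity of the second derivative
  have hh : 0 ≤ (c * w y1).re := by
    have h1 : F y1 = (c * w y1).re + (M + δ) * y1 ^ 2 / 2 := rfl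
    have h2 : y1 ^ 2 ≤ Y ^ 2 := sq_le_sq' (by linarith [hy1.1]) hy1.2
    have h3 : (M + δ) * y1 ^ 2 / 2 ≤ Y ^ 2 / 2 * (M + δ) := by nlinarith
    linarith
  have hpos : 0 < deriv (deriv F) y1 := by
    rw [hdd, mul_add, Complex.add_re]
    have h1 : (c * (q y1 • w y1)).re = q y1 * (c * w y1).re := by
      rw [Complex.real_smul, ← mul_assoc, mul_comm c, mul_assoc, Complex.re_ofReal_mul]
    have h2 := mul_nonneg (hq0 y1 hy1) hh
    have h3 := (neg_le_abs _).trans ((hcre (g y1)).trans (hM y1 hy1))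
    rw [h1]
    linarith
  have hmin : IsLocalMin F y1 := isLocalMin_of_deriv_deriv_pos hpos
    (by rw [(hdF y1 hy1').deriv, hF1y]) (hdF y1 hy1').continuousAt
  have hconst : F =ᶠ[𝓝 y1] fun _ => F y1 := by
    filter_upwards [hmin, hlm] with y h1 h2
    exact le_antisymm h2 h1
  have hd0 : deriv F =ᶠ[𝓝 y1] fun _ => 0 := by
    filter_upwards [eventually_eventually_nhds.2 hconst] with y hy
    have h1 : F =ᶠ[𝓝 y] fun _ => F y1 := hy
    rw [h1.deriv_eq, deriv_const]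
  rw [hd0.deriv_eq, deriv_const] at hpos
  exact lt_irrefl _ hpos

/-- the Dirichlet problem.  (`φ` real with `φ'' = q φ`, `φ (-Y) = 0`, `φ' (-Y) = 1` has `φ Y > 0`:
`φ' ≥ 1` as long as `φ ≥ 0`; or: if `φ Y = 0` then `ode_bound` with `A = M = 0` gives `φ = 0`.) -/
theorem bvp {Y : ℝ} (hY : 0 < Y) {q : ℝ → ℝ} (hq : ContinuousOn q (Icc (-Y) Y))
    (hq0 : ∀ y ∈ Icc (-Y) Y, 0 ≤ q y) {g : ℝ → ℂ} (hg : ContinuousOn g (Icc (-Y) Y)) (a b : ℂ) :
    ∃ w v : ℝ → ℂ, w (-Y) = a ∧ w Y = b ∧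
      (∀ y ∈ Icc (-Y) Y, HasDerivWithinAt w (v y) (Icc (-Y) Y) y) ∧
      (∀ y ∈ Icc (-Y) Y, HasDerivWithinAt v (q y • w y + g y) (Icc (-Y) Y) y) := by
  obtain ⟨φ, ψ, hφ0, hψ0, hφ, hψ⟩ := ivp (E := ℂ) hY hq (g := fun _ => 0) continuousOn_const 0 1
  obtain ⟨w1, v1, hw10, _, hw1, hv1⟩ := ivp (E := ℂ) hY hq hg a 0
  have hmY : -Y ∈ Icc (-Y) Y := ⟨le_rfl, by linarith⟩
  have hφY : φ Y ≠ 0 := by
    intro h
    have h1 := ode_bound hY hq0 (g := fun _ => 0) (A := 0) (M := 0) hφ hψ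
      (by rw [hφ0, norm_zero]) (by rw [h, norm_zero]) (fun y _ => by simp)
    have h2 : ∀ y ∈ Icc (-Y) Y, φ y = 0 := fun y hy => by
      have h3 := h1 y hy
      rw [mul_zero, add_zero] at h3
      exact norm_le_zero_iff.1 h3
    have h4 : HasDerivWithinAt φ 0 (Icc (-Y) Y) (-Y) :=
      (hasDerivWithinAt_const (-Y) (Icc (-Y) Y) (0 : ℂ)).congr h2 (h2 _ hmY)
    have h5 : UniqueDiffWithinAt ℝ (Icc (-Y) Y) (-Y) := uniqueDiffOn_Icc (by linarith) _ hmY
    have h6 := h5.eq_deriv _ (hφ _ hmY) h4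
    rw [hψ0] at h6
    exact one_ne_zero h6
  set c : ℂ := (b - w1 Y) / φ Y with hc
  refine ⟨fun y => w1 y + c * φ y, fun y => v1 y + c * ψ y, ?_, ?_, ?_, ?_⟩
  · show w1 (-Y) + c * φ (-Y) = a
    rw [hw10, hφ0, mul_zero, add_zero]
  · show w1 Y + c * φ Y = b
    rw [hc, div_mul_cancel₀ _ hφY]
    ring
  · intro y hy
    exact (hw1 y hy).add ((hφ y hy).const_mul c)
  · intro y hy
    have h1 := (hv1 y hy).add ((hψ y hy).const_mul c)
    refine h1.congr_deriv ?_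
    rw [add_zero, Complex.real_smul, Complex.real_smul, Complex.real_smul]
    ring

end P229.D1
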