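import Vale.Agent.P229.D1.Basic

/-! # P229 block D1, module FOUR: Fourier coefficients of smooth `8`-periodic functions. -/

open Set Filter Topology

namespace P229.D1

private theorem four_ex_norm (k : ℤ) (p : ℝ) : ‖ex k p‖ = 1 := by
  unfold ex
  rw [mul_comm, Complex.norm_exp_ofReal_mul_I]

private theorem four_ex_cont (k : ℤ) : Continuous (ex k) := by
  unfold ex
  fun_prop

private theorem four_ex_hasDerivAt (k : ℤ) (p : ℝ) :
    HasDerivAt (ex k) (Complex.I * (om k : ℂ) * ex k p) p := by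
  unfold ex
  have h1 : HasDerivAt (fun p : ℝ => Complex.I * ((om k * p : ℝ) : ℂ)) (Complex.I * (om k : ℂ)) p := by
    have h2 : HasDerivAt (fun p : ℝ => ((om k * p : ℝ) : ℂ)) ((om k : ℝ) : ℂ) p := by
      have h3 : HasDerivAt (fun p : ℝ => om k * p) (om k) p := by
        simpa using (hasDerivAt_id p).const_mul (om k)
      exact h3.ofReal_comp
    exact h2.const_mul Complex.I
  have h4 := h1.cexp
  rw [mul_comm] at h4
  exact h4

private theorem four_ex_eight (k : ℤ) : ex k 8 = 1 := by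
  unfold ex om
  have h : Complex.I * ((Real.pi * k / 4 * 8 : ℝ) : ℂ) = (k : ℂ) * (2 * Real.pi * Complex.I) := by
    push_cast
    ring
  rw [h, Complex.exp_int_mul_two_pi_mul_I]

private theorem four_ex_zero (k : ℤ) : ex k 0 = 1 := by
  unfold ex
  simp

private theorem four_om_neg (k : ℤ) : om (-k) = - om k := by
  unfold om
  push_cast
  ring

/-- trivial bound -/
theorem cf_le {g : ℝ → ℝ} {C : ℝ} (hC : ∀ p ∈ Icc (0 : ℝ) 8, |g p| ≤ C) (k : ℤ) :
    ‖cf g k‖ ≤ C := by
  unfold cf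
  rw [norm_mul]
  have h1 : ‖∫ p in (0 : ℝ)..8, ex (-k) p * (g p : ℂ)‖ ≤ C * |8 - 0| := by
    apply intervalIntegral.norm_integral_le_of_norm_le_const
    intro p hp
    rw [uIoc_of_le (by norm_num)] at hp
    rw [norm_mul, four_ex_norm, one_mul, Complex.norm_real]
    exact hC p ⟨hp.1.le, hp.2⟩
  have h2 : ‖(1 / 8 : ℂ)‖ = 1 / 8 := by simp
  rw [h2]
  have h3 : |(8 : ℝ) - 0| = 8 := by norm_num
  rw [h3] at h1
  linarith

private theorem four_cf_succ {F : ℕ → ℝ → ℝ} (hF : BJet F) (n : ℕ) (k : ℤ) :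
    cf (F (n + 1)) k = (Complex.I * (om k : ℂ)) * cf (F n) k := by
  have hc : ∀ n, Continuous (F n) := fun n =>
    continuous_iff_continuousAt.2 fun p => (hF.der n p).continuousAt
  have h := intervalIntegral.integral_mul_deriv_eq_deriv_mul (a := (0 : ℝ)) (b := 8)
    (u := ex (-k)) (v := fun p => (F n p : ℂ))
    (u' := fun p => Complex.I * (om (-k) : ℂ) * ex (-k) p) (v' := fun p => (F (n + 1) p : ℂ))
    (fun p _ => four_ex_hasDerivAt (-k) p) (fun p _ => (hF.der n p).ofReal_comp)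
    ((continuous_const.mul (four_ex_cont (-k))).intervalIntegrable _ _)
    ((Complex.continuous_ofReal.comp (hc (n + 1))).intervalIntegrable _ _)
  unfold cf
  rw [h, four_ex_eight, four_ex_zero]
  have h8 : F n 8 = F n 0 := by
    have := hF.per n 0
    rwa [zero_add] at this
  rw [h8]
  have h5 : (∫ x in (0 : ℝ)..8, Complex.I * (om (-k) : ℂ) * ex (-k) x * (F n x : ℂ))
      = -(Complex.I * (om k : ℂ)) * ∫ x in (0 : ℝ)..8, ex (-k) x * (F n x : ℂ) := by
    rw [← intervalIntegral.integral_const_mul]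
    congr 1
    funext x
    rw [four_om_neg]
    push_cast
    ring
  rw [h5]
  ring

/-- coefficients of the derivative (integration by parts) -/
theorem cf_deriv {F : ℕ → ℝ → ℝ} (hF : BJet F) (n : ℕ) (k : ℤ) :
    cf (F n) k = (Complex.I * (om k : ℂ)) ^ n * cf (F 0) k := by
  induction n with
  | zero => simp
  | succ n ih => rw [four_cf_succ hF, ih, pow_succ]; ring

/-- rapid decay: `|ω_k| ≥ |k| / 2` and `(1 + |k|)^m ≤ 4^m (1 + |ω_k|^m)` -/
theorem cf_dec {F : ℕ → ℝ → ℝ} (hF : BJet F) (m : ℕ) {C0 C : ℝ}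
    (hC0 : ∀ p ∈ Icc (0 : ℝ) 8, |F 0 p| ≤ C0) (hC : ∀ p ∈ Icc (0 : ℝ) 8, |F m p| ≤ C) (k : ℤ) :
    (1 + |(k : ℝ)|) ^ m * ‖cf (F 0) k‖ ≤ 4 ^ m * (C0 + C) := by
  have h0 : ‖cf (F 0) k‖ ≤ C0 := cf_le hC0 k
  have h1 : ‖cf (F m) k‖ ≤ C := cf_le hC k
  rw [cf_deriv hF m k, norm_mul, norm_pow, norm_mul, Complex.norm_I, one_mul,
    Complex.norm_real, Real.norm_eq_abs] at h1
  have hom : |(k : ℝ)| ≤ 2 * |om k| := by
    unfold om
    rw [abs_div, abs_mul, abs_of_pos Real.pi_pos, abs_of_pos (by norm_num : (0 : ℝ) < 4)]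
    have := Real.pi_gt_three
    have h2 : 0 ≤ |(k : ℝ)| := abs_nonneg _
    nlinarith
  have hk : (1 + |(k : ℝ)|) ^ m ≤ 4 ^ m * (1 + |om k| ^ m) := by
    have h3 : 0 ≤ |om k| := abs_nonneg _
    rcases le_total |om k| 1 with h4 | h4
    · calc (1 + |(k : ℝ)|) ^ m ≤ 4 ^ m := by
            apply pow_le_pow_left₀ (by positivity)
            linarith
        _ ≤ 4 ^ m * (1 + |om k| ^ m) := by
            apply le_mul_of_one_le_right (by positivity)
            have : 0 ≤ |om k| ^ m := by positivity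
            linarith
    · calc (1 + |(k : ℝ)|) ^ m ≤ (4 * |om k|) ^ m := by
            apply pow_le_pow_left₀ (by positivity)
            linarith
        _ = 4 ^ m * |om k| ^ m := mul_pow _ _ _
        _ ≤ 4 ^ m * (1 + |om k| ^ m) := by
            apply mul_le_mul_of_nonneg_left _ (by positivity)
            linarith
  calc (1 + |(k : ℝ)|) ^ m * ‖cf (F 0) k‖ ≤ 4 ^ m * (1 + |om k| ^ m) * ‖cf (F 0) k‖ :=
        mul_le_mul_of_nonneg_right hk (norm_nonneg _)
    _ = 4 ^ m * (‖cf (F 0) k‖ + |om k| ^ m * ‖cf (F 0) k‖) := by ring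
    _ ≤ 4 ^ m * (C0 + C) := by
        apply mul_le_mul_of_nonneg_left _ (by positivity)
        linarith

private theorem four_bound {g : ℝ → ℝ} (hg : Continuous g) :
    ∃ C : ℝ, ∀ p ∈ Icc (0 : ℝ) 8, |g p| ≤ C := by
  obtain ⟨C, hC⟩ := isCompact_Icc.exists_bound_of_continuousOn (s := Icc (0 : ℝ) 8) hg.continuousOn
  exact ⟨C, fun p hp => hC p hp⟩

private theorem four_summable : Summable (fun k : ℤ => 1 / (1 + |(k : ℝ)|) ^ 2) := by
  have h : Summable (fun k : ℤ => (2 : ℝ) * (1 / |(k : ℝ)| ^ 2) + (if k = 0 then 1 else 0)) := by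
    apply Summable.add
    · apply Summable.mul_left
      have := Real.summable_one_div_int_pow.2 (one_lt_two)
      simpa using this
    · exact (hasSum_ite_eq (0 : ℤ) (1 : ℝ)).summable
  refine Summable.of_nonneg_of_le (fun k => by positivity) (fun k => ?_) h
  by_cases hk : k = 0
  · subst hk
    simp
  · rw [if_neg hk, add_zero]
    have hk1 : (1 : ℝ) ≤ |(k : ℝ)| := by
      have := Int.one_le_abs hk
      exact_mod_cast this
    have h1 : 1 / (1 + |(k : ℝ)|) ^ 2 ≤ 1 / |(k : ℝ)| ^ 2 := by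
      apply one_div_le_one_div_of_le (by positivity)
      apply pow_le_pow_left₀ (by positivity)
      linarith
    have h2 : 0 ≤ 1 / |(k : ℝ)| ^ 2 := by positivity
    linarith

private theorem four_inv0 {F : ℕ → ℝ → ℝ} (hF : BJet F) (p : ℝ) :
    HasSum (fun k : ℤ => cf (F 0) k * ex k p) ((F 0 p : ℝ) : ℂ) := by
  have : Fact (0 < (8 : ℝ)) := ⟨by norm_num⟩
  have hc : ∀ n, Continuous (F n) := fun n =>
    continuous_iff_continuousAt.2 fun p => (hF.der n p).continuousAt
  have hper : Function.Periodic (fun p : ℝ => ((F 0 p : ℝ) : ℂ)) 8 := fun p => by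
    simp only [hF.per 0 p]
  let G : C(AddCircle (8 : ℝ), ℂ) :=
    ⟨hper.lift, continuous_coinduced_dom.mpr (Complex.continuous_ofReal.comp (hc 0))⟩
  have hG : ∀ x : ℝ, G (x : AddCircle (8 : ℝ)) = ((F 0 x : ℝ) : ℂ) := fun x => hper.lift_coe x
  have hfour : ∀ (k : ℤ) (x : ℝ), fourier k (x : AddCircle (8 : ℝ)) = ex k x := by
    intro k x
    rw [fourier_coe_apply]
    unfold ex om
    congr 1
    push_cast
    ring
  have hcoef : ∀ k : ℤ, fourierCoeff G k = cf (F 0) k := by
    intro k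
    rw [fourierCoeff_eq_intervalIntegral G k 0]
    unfold cf
    rw [zero_add]
    simp only [hfour, hG, smul_eq_mul]
    rw [Complex.real_smul]
    push_cast
    rfl
  obtain ⟨C0, hC0⟩ := four_bound (hc 0)
  obtain ⟨C2, hC2⟩ := four_bound (hc 2)
  have hsum : Summable (fourierCoeff G) := by
    have h1 : Summable (fun k : ℤ => (4 ^ 2 * (C0 + C2)) * (1 / (1 + |(k : ℝ)|) ^ 2)) :=
      four_summable.mul_left _
    refine Summable.of_norm_bounded h1 (fun k => ?_)
    rw [hcoef]
    have h2 := cf_dec hF 2 hC0 hC2 k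
    rw [mul_one_div, le_div_iff₀ (by positivity), mul_comm]
    exact h2
  have h := has_pointwise_sum_fourier_series_of_summable hsum (p : AddCircle (8 : ℝ))
  rw [hG] at h
  simpa only [hcoef, hfour, smul_eq_mul] using h

/-- inversion (use `has_pointwise_sum_fourier_series_of_summable` on `AddCircle 8`) -/
theorem cf_inv {F : ℕ → ℝ → ℝ} (hF : BJet F) (n : ℕ) (p : ℝ) :
    HasSum (fun k : ℤ => (Complex.I * (om k : ℂ)) ^ n * cf (F 0) k * ex k p) ((F n p : ℝ) : ℂ) := by
  have hG : BJet (fun j => F (n + j)) := ⟨fun j p => hF.per (n + j) p, fun j p => hF.der (n + j) p⟩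
  have h := four_inv0 hG p
  simp only [add_zero] at h
  have he : (fun k : ℤ => (Complex.I * (om k : ℂ)) ^ n * cf (F 0) k * ex k p)
      = fun k : ℤ => cf (F n) k * ex k p := by
    funext k
    rw [cf_deriv hF n k]
  rw [he]
  exact h

/-- continuity in the parameter -/
theorem cf_cont {Y : ℝ} {f : ℕ → ℝ → ℝ → ℝ} (hf : PJet Y f) (n : ℕ) (k : ℤ) :
    ContinuousOn (fun y => cf (fun p => f n p y) k) (Icc (-Y) Y) := by
  by_cases hY : -Y ≤ Y
  · have hcont : Continuous (fun z : ℝ × ℝ => f n z.1 (projIcc (-Y) Y hY z.2 : ℝ)) := by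
      have h1 : Continuous (fun z : ℝ × ℝ => (z.1, ((projIcc (-Y) Y hY z.2 : Icc (-Y) Y) : ℝ))) := by
        apply continuous_fst.prodMk
        exact continuous_subtype_val.comp (continuous_projIcc.comp continuous_snd)
      exact (hf.cont n).comp_continuous h1 (fun z => ⟨mem_univ _, (projIcc (-Y) Y hY z.2).2⟩)
    have h2 : Continuous (fun y => cf (fun p => f n p (projIcc (-Y) Y hY y : ℝ)) k) := by
      unfold cf
      apply continuous_const.mul
      apply intervalIntegral.continuous_parametric_intervalIntegral_of_continuous'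
      have h3 : Continuous (fun z : ℝ × ℝ => f n z.2 (projIcc (-Y) Y hY z.1 : ℝ)) :=
        hcont.comp (continuous_snd.prodMk continuous_fst)
      exact ((four_ex_cont (-k)).comp continuous_snd).mul (Complex.continuous_ofReal.comp h3)
    refine h2.continuousOn.congr (fun y hy => ?_)
    simp only [projIcc_of_mem hY hy]
  · rw [Icc_eq_empty hY]
    exact continuousOn_empty _

end P229.D1
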