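import Vale.Agent.P229.D1.Basic

/-! # P229 block D1, module SER: functions given by rapidly decreasing coefficients. -/

open Set Filter Topology

namespace P229.D1

private noncomputable def serU (k : ℤ) : ℝ := ((1 + |(k : ℝ)|) ^ 2)⁻¹

private theorem serU_summable : Summable serU := by
  rw [summable_int_iff_summable_nat_and_neg]
  have h1 : Summable (fun n : ℕ => 1 / ((n + 1 : ℕ) : ℝ) ^ 2) :=
    (summable_nat_add_iff 1).2 (Real.summable_one_div_nat_pow.2 (by norm_num))
  have h2 : ∀ n : ℕ, serU (n : ℤ) = 1 / ((n + 1 : ℕ) : ℝ) ^ 2 := by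
    intro n
    unfold serU
    rw [Int.cast_natCast, abs_of_nonneg (Nat.cast_nonneg n), one_div]
    push_cast
    rw [add_comm]
  have h3 : ∀ n : ℕ, serU (-(n : ℤ)) = 1 / ((n + 1 : ℕ) : ℝ) ^ 2 := by
    intro n
    rw [← h2 n]
    unfold serU
    rw [Int.cast_neg, abs_neg]
  exact ⟨h1.congr (fun n => (h2 n).symm), h1.congr (fun n => (h3 n).symm)⟩

private theorem ser_norm_ex (k : ℤ) (p : ℝ) : ‖ex k p‖ = 1 := by
  unfold ex
  rw [mul_comm]
  exact Complex.norm_exp_ofReal_mul_I _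

private theorem ser_om_le (k : ℤ) : ‖(Complex.I * (om k : ℂ))‖ ≤ 1 + |(k : ℝ)| := by
  rw [norm_mul, Complex.norm_I, one_mul, Complex.norm_real, Real.norm_eq_abs]
  unfold om
  rw [abs_div, abs_mul, abs_of_pos Real.pi_pos, abs_of_pos (by norm_num : (0 : ℝ) < 4)]
  have h1 := Real.pi_le_four
  have h2 := abs_nonneg (k : ℝ)
  rw [div_le_iff₀ (by norm_num)]
  nlinarith

private theorem ser_bound {Y : ℝ} {a : ℤ → ℝ → ℂ} (ha : Rap Y a) (n : ℕ) :
    ∃ C : ℝ, ∀ k : ℤ, ∀ y ∈ Icc (-Y) Y, ∀ p : ℝ,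
      ‖(Complex.I * (om k : ℂ)) ^ n * a k y * ex k p‖ ≤ C * serU k := by
  obtain ⟨C, hC⟩ := ha.dec (n + 2)
  refine ⟨C, fun k y hy p => ?_⟩
  have h0 : 0 < 1 + |(k : ℝ)| := by positivity
  rw [norm_mul, ser_norm_ex, mul_one, norm_mul, norm_pow]
  have h1 : ‖(Complex.I * (om k : ℂ))‖ ^ n * ‖a k y‖ ≤ (1 + |(k : ℝ)|) ^ n * ‖a k y‖ :=
    mul_le_mul_of_nonneg_right (pow_le_pow_left₀ (norm_nonneg _) (ser_om_le k) n) (norm_nonneg _)
  refine h1.trans ?_
  unfold serU
  rw [← div_eq_mul_inv, le_div_iff₀ (by positivity)]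
  have h2 := hC k y hy
  rw [pow_add] at h2
  linarith

/-- summability of the jet series -/
theorem sj_summable {Y : ℝ} {a : ℤ → ℝ → ℂ} (ha : Rap Y a) (n : ℕ) (p : ℝ) {y : ℝ}
    (hy : y ∈ Icc (-Y) Y) :
    Summable (fun k : ℤ => (Complex.I * (om k : ℂ)) ^ n * a k y * ex k p) := by
  obtain ⟨C, hC⟩ := ser_bound ha n
  exact Summable.of_norm_bounded (serU_summable.mul_left C) (fun k => hC k y hy p)

/-- joint continuity -/
theorem sj_cont {Y : ℝ} {a : ℤ → ℝ → ℂ} (ha : Rap Y a) (n : ℕ) :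
    ContinuousOn (fun z : ℝ × ℝ => sj a n z.1 z.2) (univ ×ˢ Icc (-Y) Y) := by
  obtain ⟨C, hC⟩ := ser_bound ha n
  unfold sj
  refine continuousOn_tsum (fun k => ?_) (serU_summable.mul_left C)
    (fun k z hz => hC k z.2 hz.2 z.1)
  have h1 : ContinuousOn (fun z : ℝ × ℝ => a k z.2) (univ ×ˢ Icc (-Y) Y) :=
    (ha.cont k).comp continuousOn_snd (fun z hz => hz.2)
  have h2 : Continuous (fun z : ℝ × ℝ => ex k z.1) := by
    unfold ex
    fun_prop
  exact (continuousOn_const.mul h1).mul h2.continuousOn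

private theorem ser_ex_per (k : ℤ) (p : ℝ) : ex k (p + 8) = ex k p := by
  unfold ex om
  have h : Complex.I * ((Real.pi * (k : ℝ) / 4 * (p + 8) : ℝ) : ℂ)
      = Complex.I * ((Real.pi * (k : ℝ) / 4 * p : ℝ) : ℂ) + (k : ℂ) * (2 * Real.pi * Complex.I) := by
    push_cast
    ring
  rw [h, Complex.exp_add, Complex.exp_int_mul_two_pi_mul_I, mul_one]

/-- periodicity -/
theorem sj_per (a : ℤ → ℝ → ℂ) (n : ℕ) (p y : ℝ) : sj a n (p + 8) y = sj a n p y := by
  unfold sj
  simp only [ser_ex_per]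

private theorem ser_ex_der (k : ℤ) (p : ℝ) :
    HasDerivAt (fun p => ex k p) (Complex.I * (om k : ℂ) * ex k p) p := by
  unfold ex
  have h1 : HasDerivAt (fun p : ℝ => Complex.I * ((om k * p : ℝ) : ℂ))
      (Complex.I * (om k : ℂ)) p := by
    have h2 : HasDerivAt (fun p : ℝ => ((om k * p : ℝ) : ℂ)) ((om k : ℝ) : ℂ) p := by
      have h3 : HasDerivAt (fun p : ℝ => om k * p) (om k) p := by
        simpa using (hasDerivAt_id p).const_mul (om k)
      exact h3.ofReal_comp
    exact h2.const_mul Complex.I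
  have h4 := h1.cexp
  rw [mul_comm] at h4
  exact h4

/-- derivative in `p` -/
theorem sj_der {Y : ℝ} {a : ℤ → ℝ → ℂ} (ha : Rap Y a) (n : ℕ) (p : ℝ) {y : ℝ}
    (hy : y ∈ Icc (-Y) Y) :
    HasDerivAt (fun p => sj a n p y) (sj a (n + 1) p y) p := by
  obtain ⟨C, hC⟩ := ser_bound ha (n + 1)
  unfold sj
  refine hasDerivAt_tsum (serU_summable.mul_left C)
    (g := fun k p => (Complex.I * (om k : ℂ)) ^ n * a k y * ex k p)
    (g' := fun k p => (Complex.I * (om k : ℂ)) ^ (n + 1) * a k y * ex k p)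
    (fun k p => ?_) (fun k p => hC k y hy p) (sj_summable ha n p hy) p
  have h := (ser_ex_der k p).const_mul ((Complex.I * (om k : ℂ)) ^ n * a k y)
  have h2 : (Complex.I * (om k : ℂ)) ^ n * a k y * (Complex.I * (om k : ℂ) * ex k p)
      = (Complex.I * (om k : ℂ)) ^ (n + 1) * a k y * ex k p := by
    rw [pow_succ]
    ring
  rw [h2] at h
  exact h

/-- derivative in `y` (write `a k y = a k (-Y) + ∫ a' k` and exchange sum and integral; the derivative
of the integral on `Icc` from the extension of `sj a' n p` by `projIcc`) -/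
theorem sj_dery {Y : ℝ} (hY : 0 < Y) {a a' : ℤ → ℝ → ℂ} (ha : Rap Y a) (ha' : Rap Y a')
    (hd : ∀ k, ∀ y ∈ Icc (-Y) Y, HasDerivWithinAt (a k) (a' k y) (Icc (-Y) Y) y) (n : ℕ) (p : ℝ)
    {y : ℝ} (hy : y ∈ Icc (-Y) Y) :
    HasDerivWithinAt (fun y => sj a n p y) (sj a' n p y) (Icc (-Y) Y) y := by
  have hle : -Y ≤ Y := by linarith
  set P : ℝ → ℝ := fun t => (projIcc (-Y) Y hle t : ℝ) with hP
  have hPc : Continuous P := continuous_subtype_val.comp continuous_projIcc
  have hPm : ∀ t, P t ∈ Icc (-Y) Y := fun t => (projIcc (-Y) Y hle t).2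
  have hPe : ∀ t ∈ Icc (-Y) Y, P t = t := fun t ht => by
    rw [hP]
    simp only
    rw [projIcc_of_mem hle ht]
  -- the extended derivative
  set A : ℤ → ℝ → ℂ := fun k t => a' k (P t) with hA
  have hAc : ∀ k, Continuous (A k) := fun k =>
    (ha'.cont k).comp_continuous hPc hPm
  set B : ℤ → ℝ → ℂ := fun k t => a k (-Y) + ∫ s in (-Y)..t, A k s with hB
  have hBd : ∀ k t, HasDerivAt (B k) (A k t) t := fun k t => by
    have h := intervalIntegral.integral_hasDerivAt_right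
      ((hAc k).intervalIntegrable (-Y) t)
      ((hAc k).stronglyMeasurableAtFilter _ _) (hAc k).continuousAt
    exact h.const_add _
  have hBe : ∀ k, ∀ t ∈ Icc (-Y) Y, B k t = a k t := fun k t ht => by
    have h := intervalIntegral.integral_eq_sub_of_hasDerivAt_of_le (f := a k) (f' := A k) ht.1
      ((ha.cont k).mono (Icc_subset_Icc le_rfl ht.2)) (fun x hx => ?_)
      ((hAc k).intervalIntegrable _ _)
    · rw [hB]
      simp only
      rw [h]
      ring
    · have hx' : x ∈ Icc (-Y) Y := ⟨hx.1.le, hx.2.le.trans ht.2⟩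
      have h1 := (hd k x hx').hasDerivAt (Icc_mem_nhds hx.1 (hx.2.trans_le ht.2))
      have h2 : A k x = a' k x := by
        rw [hA]
        simp only
        rw [hPe x hx']
      rw [h2]
      exact h1
  obtain ⟨C, hC⟩ := ser_bound ha' n
  have hmain : HasDerivAt (fun t => ∑' k : ℤ, (Complex.I * (om k : ℂ)) ^ n * B k t * ex k p)
      (∑' k : ℤ, (Complex.I * (om k : ℂ)) ^ n * A k y * ex k p) y := by
    refine hasDerivAt_tsum (serU_summable.mul_left C)
      (g := fun k t => (Complex.I * (om k : ℂ)) ^ n * B k t * ex k p)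
      (g' := fun k t => (Complex.I * (om k : ℂ)) ^ n * A k t * ex k p) (y₀ := y)
      (fun k t => ?_) (fun k t => hC k (P t) (hPm t) p) ?_ y
    · exact ((hBd k t).const_mul _).mul_const _
    · refine (sj_summable ha n p hy).congr (fun k => ?_)
      rw [hBe k y hy]
  have h1 : (∑' k : ℤ, (Complex.I * (om k : ℂ)) ^ n * A k y * ex k p) = sj a' n p y := by
    unfold sj
    refine tsum_congr (fun k => ?_)
    rw [hA]
    simp only
    rw [hPe y hy]
  rw [h1] at hmain
  refine hmain.hasDerivWithinAt.congr (fun t ht => ?_) ?_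
  · unfold sj
    exact tsum_congr (fun k => by rw [hBe k t ht])
  · unfold sj
    exact tsum_congr (fun k => by rw [hBe k y hy])

/-- the real part of a jet series is a `PJet` -/
theorem sj_pjet {Y : ℝ} {a : ℤ → ℝ → ℂ} (ha : Rap Y a) :
    PJet Y (fun n p y => (sj a n p y).re) where
  cont n := Complex.continuous_re.comp_continuousOn (sj_cont ha n)
  per n p y _ := by rw [sj_per]
  der n p y hy := by
    have h := sj_der ha n p hy
    exact Complex.reCLM.hasFDerivAt.comp_hasDerivAt p h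

end P229.D1
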