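import Vale.Agent.P229.D1.MaxP
import Vale.Agent.P229.D1.Bvp
import Vale.Agent.P229.D1.Four
import Vale.Agent.P229.D1.Ser

/-! # P229 block D1, module MAIN: the linear strip solver. -/

open Set Filter Topology

namespace P229.D1

private theorem om_le (k : ℤ) : |om k| ≤ 1 + |(k : ℝ)| := by
  unfold om
  rw [abs_div, abs_mul, abs_of_pos Real.pi_pos, abs_of_pos (by norm_num : (0 : ℝ) < 4)]
  have h := Real.pi_lt_four
  have hk := abs_nonneg (k : ℝ)
  rw [div_le_iff₀ (by norm_num)]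
  nlinarith

private theorem Rap.mul_om {Y : ℝ} {a : ℤ → ℝ → ℂ} (ha : Rap Y a) :
    Rap Y (fun k y => (om k : ℂ) * a k y) := by
  refine ⟨fun k => continuousOn_const.mul (ha.cont k), fun m => ?_⟩
  obtain ⟨C, hC⟩ := ha.dec (m + 1)
  refine ⟨C, fun k y hy => ?_⟩
  refine le_trans ?_ (hC k y hy)
  rw [norm_mul, Complex.norm_real, Real.norm_eq_abs, pow_succ]
  have h := om_le k
  have hk := abs_nonneg (k : ℝ)
  calc (1 + |(k : ℝ)|) ^ m * (|om k| * ‖a k y‖)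
      ≤ (1 + |(k : ℝ)|) ^ m * ((1 + |(k : ℝ)|) * ‖a k y‖) := by gcongr
    _ = _ := by ring

private theorem Rap.mul_c {Y : ℝ} {a : ℤ → ℝ → ℂ} (ha : Rap Y a) {c : ℝ → ℝ}
    (hc : ContinuousOn c (Icc (-Y) Y)) : Rap Y (fun k y => (c y : ℂ) * a k y) := by
  refine ⟨fun k => (Complex.continuous_ofReal.comp_continuousOn hc).mul (ha.cont k), fun m => ?_⟩
  obtain ⟨C, hC⟩ := ha.dec m
  obtain ⟨D, hD⟩ := (isCompact_Icc (a := -Y) (b := Y)).exists_bound_of_continuousOn hc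
  refine ⟨max D 0 * C, fun k y hy => ?_⟩
  rw [norm_mul, Complex.norm_real]
  have h1 := hC k y hy
  have h2 := (hD y hy).trans (le_max_left D 0)
  calc (1 + |(k : ℝ)|) ^ m * (‖c y‖ * ‖a k y‖)
      = ‖c y‖ * ((1 + |(k : ℝ)|) ^ m * ‖a k y‖) := by ring
    _ ≤ max D 0 * C := by gcongr

private theorem Rap.add {Y : ℝ} {a b : ℤ → ℝ → ℂ} (ha : Rap Y a) (hb : Rap Y b) :
    Rap Y (fun k y => a k y + b k y) := by
  refine ⟨fun k => (ha.cont k).add (hb.cont k), fun m => ?_⟩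
  obtain ⟨C, hC⟩ := ha.dec m
  obtain ⟨D, hD⟩ := hb.dec m
  refine ⟨C + D, fun k y hy => ?_⟩
  calc (1 + |(k : ℝ)|) ^ m * ‖a k y + b k y‖
      ≤ (1 + |(k : ℝ)|) ^ m * (‖a k y‖ + ‖b k y‖) := by gcongr; exact norm_add_le _ _
    _ ≤ C + D := by rw [mul_add]; exact add_le_add (hC k y hy) (hD k y hy)

private theorem PJet.bj {Y : ℝ} {f : ℕ → ℝ → ℝ → ℝ} (hf : PJet Y f) {y : ℝ}
    (hy : y ∈ Icc (-Y) Y) : BJet (fun n p => f n p y) :=
  ⟨fun n p => hf.per n p y hy, fun n p => hf.der n p y hy⟩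

private theorem PJet.bdd {Y : ℝ} {f : ℕ → ℝ → ℝ → ℝ} (hf : PJet Y f) (m : ℕ) :
    ∃ C, ∀ p ∈ Icc (0 : ℝ) 8, ∀ y ∈ Icc (-Y) Y, |f m p y| ≤ C := by
  obtain ⟨C, hC⟩ := ((isCompact_Icc (a := (0 : ℝ)) (b := 8)).prod
    (isCompact_Icc (a := -Y) (b := Y))).exists_bound_of_continuousOn
    ((hf.cont m).mono (prod_mono (subset_univ _) subset_rfl))
  exact ⟨C, fun p hp y hy => hC (p, y) ⟨hp, hy⟩⟩

private theorem BJet.bdd {F : ℕ → ℝ → ℝ} (hF : BJet F) (m : ℕ) :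
    ∃ C, ∀ p ∈ Icc (0 : ℝ) 8, |F m p| ≤ C := by
  have h : Continuous (F m) := continuous_iff_continuousAt.2 fun p => (hF.der m p).continuousAt
  obtain ⟨C, hC⟩ := (isCompact_Icc (a := (0 : ℝ)) (b := 8)).exists_bound_of_continuousOn
    h.continuousOn
  exact ⟨C, fun p hp => hC p hp⟩

private theorem BJet.dec {F : ℕ → ℝ → ℝ} (hF : BJet F) (m : ℕ) :
    ∃ C, ∀ k : ℤ, (1 + |(k : ℝ)|) ^ m * ‖cf (F 0) k‖ ≤ C := by
  obtain ⟨C0, h0⟩ := hF.bdd 0
  obtain ⟨C1, h1⟩ := hF.bdd m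
  exact ⟨_, fun k => cf_dec hF m h0 h1 k⟩

private theorem PJet.rap {Y : ℝ} {f : ℕ → ℝ → ℝ → ℝ} (hf : PJet Y f) :
    Rap Y (fun k y => cf (fun p => f 0 p y) k) := by
  refine ⟨fun k => cf_cont hf 0 k, fun m => ?_⟩
  obtain ⟨C0, h0⟩ := hf.bdd 0
  obtain ⟨C1, h1⟩ := hf.bdd m
  exact ⟨_, fun k y hy => cf_dec (hf.bj hy) m (fun p hp => h0 p hp y hy)
    (fun p hp => h1 p hp y hy) k⟩

private theorem re_deriv {g : ℝ → ℂ} {g' : ℂ} {s : Set ℝ} {y : ℝ} (h : HasDerivWithinAt g g' s y) :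
    HasDerivWithinAt (fun y => (g y).re) g'.re s y := by
  have h2 := Complex.reCLM.hasFDerivAt.comp_hasDerivWithinAt y h
  exact h2

theorem strip_solver {Y : ℝ} (hY : 0 < Y) {c : ℝ → ℝ} (hc : ContinuousOn c (Icc (-Y) Y))
    (hc0 : ∀ y ∈ Icc (-Y) Y, 0 ≤ c y) {f : ℕ → ℝ → ℝ → ℝ} (hf : PJet Y f)
    {Fm Fp : ℕ → ℝ → ℝ} (hFm : BJet Fm) (hFp : BJet Fp) :
    ∃ W V : ℕ → ℝ → ℝ → ℝ, PJet Y W ∧ PJet Y V ∧
      (∀ n p, ∀ y ∈ Icc (-Y) Y,
        HasDerivWithinAt (fun y => W n p y) (V n p y) (Icc (-Y) Y) y) ∧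
      (∀ n p, ∀ y ∈ Icc (-Y) Y,
        HasDerivWithinAt (fun y => V n p y) (f n p y - c y * W (n + 2) p y) (Icc (-Y) Y) y) ∧
      (∀ n p, W n p (-Y) = Fm n p) ∧ (∀ n p, W n p Y = Fp n p) ∧
      (∀ n A M, (∀ p, |Fm n p| ≤ A) → (∀ p, |Fp n p| ≤ A) →
        (∀ p, ∀ y ∈ Icc (-Y) Y, |f n p y| ≤ M) →
        ∀ p, ∀ y ∈ Icc (-Y) Y, |W n p y| ≤ A + Y ^ 2 / 2 * M) ∧
      (∀ n A M, (∀ p, ∀ y ∈ Icc (-Y) Y, |W n p y| ≤ A) →
        (∀ p, ∀ y ∈ Icc (-Y) Y, |f n p y - c y * W (n + 2) p y| ≤ M) →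
        ∀ p, ∀ y ∈ Icc (-Y) Y, |V n p y| ≤ A / Y + 2 * Y * M) := by
  classical
  have hleft : -Y ∈ Icc (-Y) Y := ⟨le_rfl, by linarith⟩
  have hright : Y ∈ Icc (-Y) Y := ⟨by linarith, le_rfl⟩
  set fk : ℤ → ℝ → ℂ := fun k y => cf (fun p => f 0 p y) k with hfk
  have hfr : Rap Y fk := hf.rap
  have hbv : ∀ k : ℤ, ∃ w v : ℝ → ℂ, w (-Y) = cf (Fm 0) k ∧ w Y = cf (Fp 0) k ∧
      (∀ y ∈ Icc (-Y) Y, HasDerivWithinAt w (v y) (Icc (-Y) Y) y) ∧
      (∀ y ∈ Icc (-Y) Y, HasDerivWithinAt v ((c y * om k ^ 2) • w y + fk k y) (Icc (-Y) Y) y) :=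
    fun k => bvp hY (hc.mul continuousOn_const)
      (fun y hy => mul_nonneg (hc0 y hy) (sq_nonneg _)) (hfr.cont k) _ _
  choose w v hwm hwp hw hv using hbv
  have hwc : ∀ k, ContinuousOn (w k) (Icc (-Y) Y) := fun k y hy => (hw k y hy).continuousWithinAt
  have hvc : ∀ k, ContinuousOn (v k) (Icc (-Y) Y) := fun k y hy => (hv k y hy).continuousWithinAt
  -- rapid decay of `w`
  have hwr : Rap Y w := by
    refine ⟨hwc, fun m => ?_⟩
    obtain ⟨Ca, hCa⟩ := hFm.dec m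
    obtain ⟨Cb, hCb⟩ := hFp.dec m
    obtain ⟨Cf, hCf⟩ := hfr.dec m
    refine ⟨(Ca + Cb) + Y ^ 2 / 2 * Cf, fun k y hy => ?_⟩
    set D : ℝ := (1 + |(k : ℝ)|) ^ m with hD
    have hDpos : 0 < D := by positivity
    have ha0 : 0 ≤ Ca := le_trans (by positivity) (hCa k)
    have hb0 : 0 ≤ Cb := le_trans (by positivity) (hCb k)
    have h1 := ode_bound hY (q := fun y => c y * om k ^ 2)
      (fun y hy => mul_nonneg (hc0 y hy) (sq_nonneg _)) (g := fk k) (A := (Ca + Cb) / D)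
      (M := Cf / D) (hw k) (hv k)
      (by rw [hwm, le_div_iff₀ hDpos, mul_comm]; exact (hCa k).trans (by linarith))
      (by rw [hwp, le_div_iff₀ hDpos, mul_comm]; exact (hCb k).trans (by linarith))
      (fun y hy => by rw [le_div_iff₀ hDpos, mul_comm]; exact hCf k y hy) y hy
    calc D * ‖w k y‖ ≤ D * ((Ca + Cb) / D + Y ^ 2 / 2 * (Cf / D)) := by gcongr
      _ = _ := by field_simp
  set s : ℤ → ℝ → ℂ := fun k y => (c y : ℂ) * ((om k : ℂ) * ((om k : ℂ) * w k y)) + fk k y with hs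
  have hsr : Rap Y s := ((hwr.mul_om.mul_om).mul_c hc).add hfr
  have hv' : ∀ k, ∀ y ∈ Icc (-Y) Y, HasDerivWithinAt (v k) (s k y) (Icc (-Y) Y) y := by
    intro k y hy
    have h := hv k y hy
    have e : (c y * om k ^ 2) • w k y + fk k y = s k y := by
      simp only [hs]
      rw [Complex.real_smul]
      push_cast
      ring
    rwa [e] at h
  have hvr : Rap Y v := by
    refine ⟨hvc, fun m => ?_⟩
    obtain ⟨Ca, hCa⟩ := hwr.dec m
    obtain ⟨Cs, hCs⟩ := hsr.dec m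
    refine ⟨Ca / Y + 2 * Y * Cs, fun k y hy => ?_⟩
    set D : ℝ := (1 + |(k : ℝ)|) ^ m with hD
    have hDpos : 0 < D := by positivity
    have h1 := interp hY (A := Ca / D) (M := Cs / D) (hw k) (hv' k)
      (fun y hy => by rw [le_div_iff₀ hDpos, mul_comm]; exact hCa k y hy)
      (fun y hy => by rw [le_div_iff₀ hDpos, mul_comm]; exact hCs k y hy) y hy
    calc D * ‖v k y‖ ≤ D * ((Ca / D) / Y + 2 * Y * (Cs / D)) := by gcongr
      _ = _ := by field_simp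
  -- the equation
  have heq : ∀ n p, ∀ y ∈ Icc (-Y) Y,
      sj s n p y = (f n p y : ℂ) - (c y : ℂ) * sj w (n + 2) p y := by
    intro n p y hy
    have h1 : HasSum (fun k : ℤ => (Complex.I * (om k : ℂ)) ^ n * fk k y * ex k p)
        ((f n p y : ℝ) : ℂ) := cf_inv (hf.bj hy) n p
    have h2 := (sj_summable hwr (n + 2) p hy).hasSum
    have h3 := h1.sub (h2.mul_left (c y : ℂ))
    unfold sj
    rw [← h3.tsum_eq]
    congr 1
    funext k
    simp only [hs]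
    have hI : (Complex.I * (om k : ℂ)) ^ (n + 2) =
        -((Complex.I * (om k : ℂ)) ^ n * (om k : ℂ) * (om k : ℂ)) := by
      rw [pow_add]
      have : (Complex.I * (om k : ℂ)) ^ 2 = -((om k : ℂ) * (om k : ℂ)) := by
        rw [mul_pow, Complex.I_sq]; ring
      rw [this]; ring
    rw [hI]
    ring
  have hW : PJet Y (fun n p y => (sj w n p y).re) := sj_pjet hwr
  have hV : PJet Y (fun n p y => (sj v n p y).re) := sj_pjet hvr
  have hd1 : ∀ n p, ∀ y ∈ Icc (-Y) Y,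
      HasDerivWithinAt (fun y => (sj w n p y).re) (sj v n p y).re (Icc (-Y) Y) y :=
    fun n p y hy => re_deriv (sj_dery hY hwr hvr hw n p hy)
  have hd2 : ∀ n p, ∀ y ∈ Icc (-Y) Y,
      HasDerivWithinAt (fun y => (sj v n p y).re) (f n p y - c y * (sj w (n + 2) p y).re)
        (Icc (-Y) Y) y := by
    intro n p y hy
    have h := re_deriv (sj_dery hY hvr hsr hv' n p hy)
    rw [heq n p y hy] at h
    have e : ((f n p y : ℂ) - (c y : ℂ) * sj w (n + 2) p y).re =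
        f n p y - c y * (sj w (n + 2) p y).re := by
      simp
    rwa [e] at h
  have hbm : ∀ n p, (sj w n p (-Y)).re = Fm n p := by
    intro n p
    have h1 := cf_inv hFm n p
    have : sj w n p (-Y) = ((Fm n p : ℝ) : ℂ) := by
      unfold sj
      simp only [hwm]
      exact h1.tsum_eq
    rw [this]; simp
  have hbp : ∀ n p, (sj w n p Y).re = Fp n p := by
    intro n p
    have h1 := cf_inv hFp n p
    have : sj w n p Y = ((Fp n p : ℝ) : ℂ) := by
      unfold sj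
      simp only [hwp]
      exact h1.tsum_eq
    rw [this]; simp
  refine ⟨_, _, hW, hV, hd1, hd2, hbm, hbp, ?_, ?_⟩
  · intro n A M hA1 hA2 hM p y hy
    have hM0 : 0 ≤ M := (abs_nonneg _).trans (hM 0 Y hright)
    have hin : ∀ y ∈ Ioo (-Y) Y, Icc (-Y) Y ∈ 𝓝 y := fun y hy => Icc_mem_nhds hy.1 hy.2
    have up := max_per hY hc0 (w := fun p y => (sj w n p y).re)
      (w1 := fun p y => (sj w (n + 1) p y).re) (w2 := fun p y => (sj w (n + 2) p y).re)
      (v1 := fun p y => (sj v n p y).re)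
      (v2 := fun p y => f n p y - c y * (sj w (n + 2) p y).re) (A := A) (M := M) hM0
      (hW.cont n) (hW.per n) (fun p y hy => hW.der n p y (Ioo_subset_Icc_self hy))
      (fun p y hy => hW.der (n + 1) p y (Ioo_subset_Icc_self hy))
      (fun p y hy => (hd1 n p y (Ioo_subset_Icc_self hy)).hasDerivAt (hin y hy))
      (fun p y hy => (hd2 n p y (Ioo_subset_Icc_self hy)).hasDerivAt (hin y hy))
      (fun p y hy => by
        have := abs_le.1 (hM p y (Ioo_subset_Icc_self hy))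
        linarith [this.1])
      (fun p => by
        have h1 := abs_le.1 (hA1 p)
        have h2 := abs_le.1 (hA2 p)
        rw [hbm, hbp]
        exact ⟨h1.2, h2.2⟩) p y hy
    have dn := max_per hY hc0 (w := fun p y => -(sj w n p y).re)
      (w1 := fun p y => -(sj w (n + 1) p y).re) (w2 := fun p y => -(sj w (n + 2) p y).re)
      (v1 := fun p y => -(sj v n p y).re)
      (v2 := fun p y => -(f n p y - c y * (sj w (n + 2) p y).re)) (A := A) (M := M) hM0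
      (hW.cont n).neg (fun p y hy => by
        rw [hW.per n p y hy])
      (fun p y hy => (hW.der n p y (Ioo_subset_Icc_self hy)).neg)
      (fun p y hy => (hW.der (n + 1) p y (Ioo_subset_Icc_self hy)).neg)
      (fun p y hy => ((hd1 n p y (Ioo_subset_Icc_self hy)).hasDerivAt (hin y hy)).neg)
      (fun p y hy => ((hd2 n p y (Ioo_subset_Icc_self hy)).hasDerivAt (hin y hy)).neg)
      (fun p y hy => by
        have := abs_le.1 (hM p y (Ioo_subset_Icc_self hy))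
        linarith [this.2])
      (fun p => by
        have h1 := abs_le.1 (hA1 p)
        have h2 := abs_le.1 (hA2 p)
        rw [hbm, hbp]
        exact ⟨by linarith [h1.1], by linarith [h2.1]⟩) p y hy
    rw [abs_le]
    exact ⟨by linarith, up⟩
  · intro n A M hA hM p y hy
    have := interp hY (w := fun y => (sj w n p y).re) (v := fun y => (sj v n p y).re)
      (s := fun y => f n p y - c y * (sj w (n + 2) p y).re) (A := A) (M := M)
      (hd1 n p) (hd2 n p) (fun y hy => hA p y hy) (fun y hy => hM p y hy) y hy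
    exact this

end P229.D1
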