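import Vale.Agent.P229.Defs
import Vale.Agent.P229.D1.Main

/-! # P229 block D1, module IFACE: the strip solver for compactly supported data (used by D2). -/

open Set Filter Topology

namespace P229.D1

/-- jets in `p` on the strip, no periodicity -/
structure CJet (f : ℕ → ℝ → ℝ → ℝ) : Prop where
  cont : ∀ n, ContinuousOn (fun z : ℝ × ℝ => f n z.1 z.2) (univ ×ˢ Icc (-YY) YY)
  der : ∀ n p, ∀ y ∈ Icc (-YY) YY, HasDerivAt (fun t => f n t y) (f (n + 1) p y) p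

/-- periodization (of functions supported in `|p| ≤ 2`) -/
private noncomputable def pz (g : ℝ → ℝ) (p : ℝ) : ℝ := g (p - 8 * (round (p / 8) : ℝ))

private theorem pz_per (g : ℝ → ℝ) (p : ℝ) : pz g (p + 8) = pz g p := by
  unfold pz
  have h : (p + 8) / 8 = p / 8 + 1 := by ring
  rw [h, round_add_one]
  congr 1
  push_cast
  ring

private theorem pz_small (g : ℝ → ℝ) {p : ℝ} (hp : |p| ≤ 3) : pz g p = g p := by
  unfold pz
  have h := abs_le.1 hp
  have : round (p / 8) = 0 := by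
    rw [round_eq_zero_iff]
    constructor
    · linarith [h.1]
    · linarith [h.2]
  rw [this]
  simp

private theorem round_close (p : ℝ) : |p - 8 * (round (p / 8) : ℝ)| ≤ 4 := by
  have h := abs_sub_round (p / 8)
  rw [abs_le] at h ⊢
  constructor <;> linarith [h.1, h.2]

private theorem pz_loc {g : ℝ → ℝ} (h0 : ∀ p, 2 ≤ |p| → g p = 0) {p q : ℝ} (hq : |q - p| < 1) :
    pz g q = g (q - 8 * (round (p / 8) : ℝ)) := by
  unfold pz
  by_cases h : round (q / 8) = round (p / 8)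
  · rw [h]
  · have hp := abs_le.1 (round_close p)
    have hq4 := abs_le.1 (round_close q)
    have hq1 := abs_lt.1 hq
    set m : ℤ := round (p / 8) with hm
    set m' : ℤ := round (q / 8) with hm'
    have hcases : (m' : ℝ) ≤ m - 1 ∨ (m : ℝ) + 1 ≤ m' := by
      rcases lt_or_gt_of_ne h with h1 | h1
      · left; exact_mod_cast Int.le_sub_one_of_lt h1
      · right; exact_mod_cast Int.add_one_le_of_lt h1
    have e1 : 2 ≤ |q - 8 * (m' : ℝ)| := by
      rw [le_abs]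
      rcases hcases with h1 | h1
      · left; linarith [hp.1, hp.2, hq1.1, hq1.2]
      · right; linarith [hp.1, hp.2, hq1.1, hq1.2]
    have e2 : 2 ≤ |q - 8 * (m : ℝ)| := by
      rw [le_abs]
      rcases hcases with h1 | h1
      · right; linarith [hq4.1, hq4.2]
      · left; linarith [hq4.1, hq4.2]
    rw [h0 _ e1, h0 _ e2]

private theorem pz_ev {g : ℝ → ℝ} (h0 : ∀ p, 2 ≤ |p| → g p = 0) (p : ℝ) :
    (fun q => pz g q) =ᶠ[𝓝 p] fun q => g (q - 8 * (round (p / 8) : ℝ)) := by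
  have : Metric.ball p 1 ∈ 𝓝 p := Metric.ball_mem_nhds p one_pos
  filter_upwards [this] with q hq
  exact pz_loc h0 (by rwa [Metric.mem_ball, Real.dist_eq] at hq)

private theorem pz_der {g g' : ℝ → ℝ} (h0 : ∀ p, 2 ≤ |p| → g p = 0)
    (hd : ∀ p, HasDerivAt g (g' p) p) (p : ℝ) : HasDerivAt (fun q => pz g q) (pz g' p) p := by
  refine HasDerivAt.congr_of_eventuallyEq ?_ (pz_ev h0 p)
  have h := (hd (p - 8 * (round (p / 8) : ℝ))).comp_sub_const p (8 * (round (p / 8) : ℝ))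
  exact h

theorem strip_solver_c {c : ℝ → ℝ} (hc : ContinuousOn c (Icc (-YY) YY))
    (hc0 : ∀ y ∈ Icc (-YY) YY, 0 ≤ c y) {f : ℕ → ℝ → ℝ → ℝ} (hf : CJet f)
    (hf0 : ∀ n p y, 2 ≤ |p| → f n p y = 0) {Fm Fp : ℕ → ℝ → ℝ}
    (hFm : ∀ n p, HasDerivAt (Fm n) (Fm (n + 1) p) p) (hFm0 : ∀ n p, 2 ≤ |p| → Fm n p = 0)
    (hFp : ∀ n p, HasDerivAt (Fp n) (Fp (n + 1) p) p) (hFp0 : ∀ n p, 2 ≤ |p| → Fp n p = 0) :
    ∃ W V X : ℕ → ℝ → ℝ → ℝ, CJet W ∧ CJet V ∧ CJet X ∧
      (∀ n p, ∀ y ∈ Icc (-YY) YY,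
        HasDerivWithinAt (fun y => W n p y) (V n p y) (Icc (-YY) YY) y) ∧
      (∀ n p, ∀ y ∈ Icc (-YY) YY,
        HasDerivWithinAt (fun y => V n p y) (X n p y) (Icc (-YY) YY) y) ∧
      (∀ n p, |p| ≤ 3 → ∀ y ∈ Icc (-YY) YY, X n p y = f n p y - c y * W (n + 2) p y) ∧
      (∀ n p, |p| ≤ 3 → W n p (-YY) = Fm n p ∧ W n p YY = Fp n p) ∧
      (∀ n A M, (∀ p, |Fm n p| ≤ A) → (∀ p, |Fp n p| ≤ A) →
        (∀ p, ∀ y ∈ Icc (-YY) YY, |f n p y| ≤ M) →
        (∀ p, ∀ y ∈ Icc (-YY) YY, |W n p y| ≤ A + YY ^ 2 / 2 * M) ∧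
        (∀ L, (∀ p, ∀ y ∈ Icc (-YY) YY, |c y * W (n + 2) p y| ≤ L) →
          ∀ p, ∀ y ∈ Icc (-YY) YY, |X n p y| ≤ M + L ∧
            |V n p y| ≤ (A + YY ^ 2 / 2 * M) / YY + 2 * YY * (M + L))) := by
  have hY : (0 : ℝ) < YY := by unfold YY; norm_num
  -- the periodized right hand side
  have hper : PJet YY (fun n p y => pz (fun t => f n t y) p) := by
    refine ⟨fun n => ?_, fun n p y _ => pz_per _ p, fun n p y hy => ?_⟩
    · rintro ⟨p, y⟩ ⟨-, hy⟩
      have h1 : ContinuousWithinAt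
          (fun z : ℝ × ℝ => f n (z.1 - 8 * (round (p / 8) : ℝ)) z.2)
          (univ ×ˢ Icc (-YY) YY) (p, y) := by
        have hcomp := hf.cont n (p - 8 * (round (p / 8) : ℝ), y) ⟨mem_univ _, hy⟩
        have hg : ContinuousWithinAt
            (fun z : ℝ × ℝ => ((z.1 - 8 * (round (p / 8) : ℝ), z.2) : ℝ × ℝ))
            (univ ×ˢ Icc (-YY) YY) (p, y) := by
          apply Continuous.continuousWithinAt
          fun_prop
        have hmap : MapsTo (fun z : ℝ × ℝ => ((z.1 - 8 * (round (p / 8) : ℝ), z.2) : ℝ × ℝ))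
            (univ ×ˢ Icc (-YY) YY) (univ ×ˢ Icc (-YY) YY) := fun z hz => ⟨mem_univ _, hz.2⟩
        exact ContinuousWithinAt.comp (f := fun z : ℝ × ℝ =>
          ((z.1 - 8 * (round (p / 8) : ℝ), z.2) : ℝ × ℝ)) hcomp hg hmap
      refine h1.congr_of_eventuallyEq ?_ ?_
      · have hb : (Prod.fst : ℝ × ℝ → ℝ) ⁻¹' Metric.ball p 1 ∈ 𝓝 ((p, y) : ℝ × ℝ) :=
          continuous_fst.continuousAt.preimage_mem_nhds (Metric.ball_mem_nhds p one_pos)
        filter_upwards [mem_nhdsWithin_of_mem_nhds hb] with z hz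
        have hz' : |z.1 - p| < 1 := by
          have : z.1 ∈ Metric.ball p 1 := hz
          rwa [Metric.mem_ball, Real.dist_eq] at this
        exact pz_loc (g := fun t => f n t z.2) (fun q hq => hf0 n q z.2 hq) hz'
      · rfl
    · exact pz_der (g := fun t => f n t y) (g' := fun t => f (n + 1) t y)
        (fun q hq => hf0 n q y hq) (fun q => hf.der n q y hy) p
  have hbm : BJet (fun n p => pz (Fm n) p) :=
    ⟨fun n p => pz_per _ p, fun n p => pz_der (hFm0 n) (hFm n) p⟩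
  have hbp : BJet (fun n p => pz (Fp n) p) :=
    ⟨fun n p => pz_per _ p, fun n p => pz_der (hFp0 n) (hFp n) p⟩
  obtain ⟨W, V, hW, hV, h1, h2, h3, h4, h5, h6⟩ := strip_solver hY hc hc0 hper hbm hbp
  refine ⟨W, V, fun n p y => pz (fun t => f n t y) p - c y * W (n + 2) p y,
    ⟨hW.cont, hW.der⟩, ⟨hV.cont, hV.der⟩, ⟨fun n => ?_, fun n p y hy => ?_⟩, h1, h2, ?_, ?_, ?_⟩
  · refine (hper.cont n).sub (ContinuousOn.mul ?_ (hW.cont (n + 2)))
    exact hc.comp continuous_snd.continuousOn (fun z hz => hz.2)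
  · exact (hper.der n p y hy).sub ((hW.der (n + 2) p y hy).const_mul (c y))
  · intro n p hp y _
    simp only
    rw [pz_small _ hp]
  · intro n p hp
    rw [h3, h4, pz_small _ hp, pz_small _ hp]
    exact ⟨rfl, rfl⟩
  · intro n A M hA1 hA2 hM
    have hWb := h5 n A M (fun p => hA1 _) (fun p => hA2 _) (fun p y hy => hM _ y hy)
    refine ⟨hWb, fun L hL p y hy => ?_⟩
    have hX : ∀ p, ∀ y ∈ Icc (-YY) YY,
        |pz (fun t => f n t y) p - c y * W (n + 2) p y| ≤ M + L := by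
      intro p y hy
      exact (abs_sub _ _).trans (add_le_add (hM _ y hy) (hL p y hy))
    exact ⟨hX p y hy, h6 n _ _ hWb hX p y hy⟩

end P229.D1
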