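import Vale.Agent.P229.D1.Basic

/-! # P229 block D1, module MAXP: maximum principles. -/

open Set Filter Topology

namespace P229.D1

/-- second derivative test at an interior maximum -/
theorem second_le_zero {a b x0 : ℝ} (hx : x0 ∈ Ioo a b) {f f' : ℝ → ℝ} {s : ℝ}
    (hf : ∀ x ∈ Ioo a b, HasDerivAt f (f' x) x) (hf' : HasDerivAt f' s x0)
    (hmax : ∀ x ∈ Ioo a b, f x ≤ f x0) : s ≤ 0 := by
  have h0 : f' x0 = 0 := by
    have hloc : IsLocalMax f x0 := by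
      filter_upwards [Ioo_mem_nhds hx.1 hx.2] with x hx'
      exact hmax x hx'
    exact hloc.hasDerivAt_eq_zero (hf x0 hx)
  by_contra hs
  push Not at hs
  have h1 : Tendsto (slope f' x0) (𝓝[≠] x0) (𝓝 s) := hasDerivAt_iff_tendsto_slope.mp hf'
  have h2 : ∀ᶠ x in 𝓝[≠] x0, 0 < slope f' x0 x := h1.eventually (lt_mem_nhds hs)
  have h3 : ∀ᶠ x in 𝓝[>] x0, 0 < slope f' x0 x :=
    h2.filter_mono (nhdsWithin_mono _ (fun x (hx : x0 < x) => ne_of_gt hx))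
  have h4 : {x | 0 < slope f' x0 x} ∈ 𝓝[>] x0 := h3
  obtain ⟨u, hu, hsub⟩ := (mem_nhdsGT_iff_exists_Ioo_subset).mp h4
  have hu' : x0 < u := hu
  set x1 : ℝ := min ((x0 + u) / 2) ((x0 + b) / 2) with hx1
  have hx1a : x0 < x1 := by
    rw [hx1, lt_min_iff]
    constructor
    · linarith
    · linarith [hx.2]
  have hx1b : x1 < u := by
    have := min_le_left ((x0 + u) / 2) ((x0 + b) / 2)
    linarith
  have hx1c : x1 < b := by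
    have := min_le_right ((x0 + u) / 2) ((x0 + b) / 2)
    linarith [hx.2]
  have hcont : ContinuousOn f (Icc x0 x1) := fun x hx' =>
    (hf x ⟨lt_of_lt_of_le hx.1 hx'.1, lt_of_le_of_lt hx'.2 hx1c⟩).continuousAt.continuousWithinAt
  obtain ⟨c, hc, hceq⟩ := exists_hasDerivAt_eq_slope f f' hx1a hcont
    (fun x hx' => hf x ⟨hx.1.trans hx'.1, hx'.2.trans hx1c⟩)
  have hpos : 0 < slope f' x0 c := hsub ⟨hc.1, hc.2.trans hx1b⟩
  have hpos2 : 0 < f' c := by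
    rw [slope_def_field, h0, sub_zero] at hpos
    have hc0 : 0 < c - x0 := by linarith [hc.1]
    by_contra hneg
    push Not at hneg
    have := div_nonpos_of_nonpos_of_nonneg hneg hc0.le
    linarith
  rw [hceq] at hpos2
  have h5 : f x1 ≤ f x0 := hmax x1 ⟨hx.1.trans hx1a, hx1c⟩
  have h6 := div_nonpos_of_nonpos_of_nonneg (sub_nonpos.mpr h5) (sub_pos.mpr hx1a).le
  linarith

/-- adding a quadratic in `y` -/
private theorem maxP_addquad {K : ℝ} {g g1 : ℝ → ℝ} {y s : ℝ} 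
    (h1 : HasDerivAt g (g1 y) y) (h2 : HasDerivAt g1 s y) :
    HasDerivAt (fun y => g y + K * y ^ 2 / 2) (g1 y + K * y) y ∧
      HasDerivAt (fun y => g1 y + K * y) (s + K) y := by
  constructor
  · have h3 : HasDerivAt (fun y : ℝ => K * y ^ 2 / 2) (K * y) y := by
      have h4 := ((hasDerivAt_pow 2 y).const_mul K).div_const 2
      refine h4.congr_deriv ?_
      norm_num
      ring
    exact h1.add h3
  · have h3 : HasDerivAt (fun y : ℝ => K * y) K y := by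
      simpa using (hasDerivAt_id y).const_mul K
    exact h2.add h3

/-- no interior maximum of `w + (M + δ) y² / 2` -/
private theorem maxP_interior {p0 y0 r Y : ℝ} (hr : 0 < r) (hy0 : y0 ∈ Ioo (-Y) Y)
    {w w1 w2 v1 v2 : ℝ → ℝ → ℝ} {M δ c : ℝ} (hδ : 0 < δ) (hc : 0 ≤ c)
    (hp1 : ∀ p ∈ Ioo (p0 - r) (p0 + r), HasDerivAt (fun p => w p y0) (w1 p y0) p)
    (hp2 : HasDerivAt (fun p => w1 p y0) (w2 p0 y0) p0)
    (hy1 : ∀ y ∈ Ioo (-Y) Y, HasDerivAt (fun y => w p0 y) (v1 p0 y) y)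
    (hy2 : ∀ y ∈ Ioo (-Y) Y, HasDerivAt (fun y => v1 p0 y) (v2 p0 y) y)
    (heq : -M ≤ v2 p0 y0 + c * w2 p0 y0)
    (hmaxp : ∀ p ∈ Ioo (p0 - r) (p0 + r), w p y0 ≤ w p0 y0)
    (hmaxy : ∀ y ∈ Ioo (-Y) Y,
      w p0 y + (M + δ) * y ^ 2 / 2 ≤ w p0 y0 + (M + δ) * y0 ^ 2 / 2) : False := by
  have hA : w2 p0 y0 ≤ 0 :=
    second_le_zero (a := p0 - r) (b := p0 + r) (x0 := p0) ⟨by linarith, by linarith⟩
      (f := fun p => w p y0) (f' := fun p => w1 p y0) hp1 hp2 hmaxp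
  have hB : v2 p0 y0 + (M + δ) ≤ 0 :=
    second_le_zero (a := -Y) (b := Y) (x0 := y0) hy0
      (f := fun y => w p0 y + (M + δ) * y ^ 2 / 2) (f' := fun y => v1 p0 y + (M + δ) * y)
      (fun y hy => (maxP_addquad (K := M + δ) (hy1 y hy) (hy2 y hy)).1)
      (maxP_addquad (K := M + δ) (hy1 y0 hy0) (hy2 y0 hy0)).2 hmaxy
  nlinarith [mul_nonneg hc (neg_nonneg.mpr hA)]

private theorem maxP_limit {w A Y M : ℝ} (h : ∀ δ : ℝ, 0 < δ → w ≤ A + (M + δ) * Y ^ 2 / 2) :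
    w ≤ A + Y ^ 2 / 2 * M := by
  refine le_of_forall_pos_le_add ?_
  intro ε hε
  have hY2 : (0 : ℝ) < Y ^ 2 + 1 := by positivity
  have h1 := h (ε / (Y ^ 2 + 1)) (by positivity)
  have h2 : ε / (Y ^ 2 + 1) * Y ^ 2 ≤ ε := by
    rw [div_mul_eq_mul_div, div_le_iff₀ hY2]
    nlinarith [sq_nonneg Y]
  have h3 : (M + ε / (Y ^ 2 + 1)) * Y ^ 2 / 2 = Y ^ 2 / 2 * M + ε / (Y ^ 2 + 1) * Y ^ 2 / 2 := by
    ring
  rw [h3] at h1
  linarith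

/-- maximum principle on a rectangle for `w_yy + c w_pp`, `c ≥ 0` (pure second derivatives only) -/
theorem max_rect {a b Y : ℝ} (hab : a < b) (hY : 0 < Y) {c : ℝ → ℝ → ℝ}
    (hc : ∀ p ∈ Ioo a b, ∀ y ∈ Ioo (-Y) Y, 0 ≤ c p y)
    {w w1 w2 v1 v2 : ℝ → ℝ → ℝ} {A M : ℝ} (hM : 0 ≤ M)
    (hw : ContinuousOn (fun z : ℝ × ℝ => w z.1 z.2) (Icc a b ×ˢ Icc (-Y) Y))
    (hp1 : ∀ p ∈ Ioo a b, ∀ y ∈ Ioo (-Y) Y, HasDerivAt (fun p => w p y) (w1 p y) p)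
    (hp2 : ∀ p ∈ Ioo a b, ∀ y ∈ Ioo (-Y) Y, HasDerivAt (fun p => w1 p y) (w2 p y) p)
    (hy1 : ∀ p ∈ Ioo a b, ∀ y ∈ Ioo (-Y) Y, HasDerivAt (fun y => w p y) (v1 p y) y)
    (hy2 : ∀ p ∈ Ioo a b, ∀ y ∈ Ioo (-Y) Y, HasDerivAt (fun y => v1 p y) (v2 p y) y)
    (heq : ∀ p ∈ Ioo a b, ∀ y ∈ Ioo (-Y) Y, -M ≤ v2 p y + c p y * w2 p y)
    (hb1 : ∀ y ∈ Icc (-Y) Y, w a y ≤ A ∧ w b y ≤ A)
    (hb2 : ∀ p ∈ Icc a b, w p (-Y) ≤ A ∧ w p Y ≤ A) :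
    ∀ p ∈ Icc a b, ∀ y ∈ Icc (-Y) Y, w p y ≤ A + Y ^ 2 / 2 * M := by
  intro p hp y hy
  refine maxP_limit (fun δ hδ => ?_)
  have hcont : ContinuousOn (fun z : ℝ × ℝ => w z.1 z.2 + (M + δ) * z.2 ^ 2 / 2)
      (Icc a b ×ˢ Icc (-Y) Y) := by
    refine hw.add ?_
    fun_prop
  have hne : (Icc a b ×ˢ Icc (-Y) Y : Set (ℝ × ℝ)).Nonempty := ⟨(p, y), hp, hy⟩
  obtain ⟨⟨p0, y0⟩, ⟨hp0, hy0⟩, hmax⟩ := (isCompact_Icc.prod isCompact_Icc).exists_isMaxOn hne hcont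
  simp only at hp0 hy0
  have hmax' : ∀ q ∈ Icc a b, ∀ t ∈ Icc (-Y) Y,
      w q t + (M + δ) * t ^ 2 / 2 ≤ w p0 y0 + (M + δ) * y0 ^ 2 / 2 := fun q hq t ht =>
    hmax (show ((q, t) : ℝ × ℝ) ∈ Icc a b ×ˢ Icc (-Y) Y from ⟨hq, ht⟩)
  have hK : 0 ≤ M + δ := by linarith
  have hy0sq : y0 ^ 2 ≤ Y ^ 2 := by nlinarith [hy0.1, hy0.2]
  have key : w p0 y0 ≤ A := by
    by_contra hcon
    have hpa : p0 ≠ a := fun h => hcon (by rw [h]; exact (hb1 y0 hy0).1)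
    have hpb : p0 ≠ b := fun h => hcon (by rw [h]; exact (hb1 y0 hy0).2)
    have hya : y0 ≠ -Y := fun h => hcon (by rw [h]; exact (hb2 p0 hp0).1)
    have hyb : y0 ≠ Y := fun h => hcon (by rw [h]; exact (hb2 p0 hp0).2)
    have hpI : p0 ∈ Ioo a b := ⟨lt_of_le_of_ne hp0.1 (Ne.symm hpa), lt_of_le_of_ne hp0.2 hpb⟩
    have hyI : y0 ∈ Ioo (-Y) Y := ⟨lt_of_le_of_ne hy0.1 (Ne.symm hya), lt_of_le_of_ne hy0.2 hyb⟩
    set r : ℝ := min (p0 - a) (b - p0) with hr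
    have hr0 : 0 < r := by
      rw [hr, lt_min_iff]
      exact ⟨by linarith [hpI.1], by linarith [hpI.2]⟩
    have hsub : ∀ q ∈ Ioo (p0 - r) (p0 + r), q ∈ Ioo a b := by
      intro q hq
      have h1 := min_le_left (p0 - a) (b - p0)
      have h2 := min_le_right (p0 - a) (b - p0)
      rw [← hr] at h1 h2
      exact ⟨by linarith [hq.1], by linarith [hq.2]⟩
    refine maxP_interior (Y := Y) (w := w) (w1 := w1) (w2 := w2) (v1 := v1) (v2 := v2) (M := M)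
      (c := c p0 y0) hr0 hyI hδ (hc p0 hpI y0 hyI)
      (fun q hq => hp1 q (hsub q hq) y0 hyI) (hp2 p0 hpI y0 hyI)
      (fun t ht => hy1 p0 hpI t ht) (fun t ht => hy2 p0 hpI t ht) (heq p0 hpI y0 hyI) ?_ ?_
    · intro q hq
      have h1 := hmax' q (Ioo_subset_Icc_self (hsub q hq)) y0 hy0
      linarith
    · intro t ht
      exact hmax' p0 hp0 t (Ioo_subset_Icc_self ht)
  have h1 := hmax' p hp y hy
  have h2 : 0 ≤ (M + δ) * y ^ 2 / 2 := by positivity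
  have h3 : (M + δ) * y0 ^ 2 / 2 ≤ (M + δ) * Y ^ 2 / 2 := by
    have := mul_le_mul_of_nonneg_left hy0sq hK
    linarith
  linarith

/-- maximum principle on the periodic strip -/
theorem max_per {Y : ℝ} (hY : 0 < Y) {c : ℝ → ℝ}
    (hc : ∀ y ∈ Icc (-Y) Y, 0 ≤ c y) {w w1 w2 v1 v2 : ℝ → ℝ → ℝ} {A M : ℝ} (hM : 0 ≤ M)
    (hw : ContinuousOn (fun z : ℝ × ℝ => w z.1 z.2) (univ ×ˢ Icc (-Y) Y))
    (hper : ∀ p, ∀ y ∈ Icc (-Y) Y, w (p + 8) y = w p y)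
    (hp1 : ∀ p, ∀ y ∈ Ioo (-Y) Y, HasDerivAt (fun p => w p y) (w1 p y) p)
    (hp2 : ∀ p, ∀ y ∈ Ioo (-Y) Y, HasDerivAt (fun p => w1 p y) (w2 p y) p)
    (hy1 : ∀ p, ∀ y ∈ Ioo (-Y) Y, HasDerivAt (fun y => w p y) (v1 p y) y)
    (hy2 : ∀ p, ∀ y ∈ Ioo (-Y) Y, HasDerivAt (fun y => v1 p y) (v2 p y) y)
    (heq : ∀ p, ∀ y ∈ Ioo (-Y) Y, -M ≤ v2 p y + c y * w2 p y)
    (hb : ∀ p, w p (-Y) ≤ A ∧ w p Y ≤ A) :
    ∀ p, ∀ y ∈ Icc (-Y) Y, w p y ≤ A + Y ^ 2 / 2 * M := by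
  intro p y hy
  refine maxP_limit (fun δ hδ => ?_)
  have hcont : ContinuousOn (fun z : ℝ × ℝ => w z.1 z.2 + (M + δ) * z.2 ^ 2 / 2)
      (Icc 0 8 ×ˢ Icc (-Y) Y) := by
    refine (hw.mono (prod_mono (subset_univ _) Subset.rfl)).add ?_
    fun_prop
  have hne : (Icc 0 8 ×ˢ Icc (-Y) Y : Set (ℝ × ℝ)).Nonempty :=
    ⟨(0, y), ⟨le_refl _, by norm_num⟩, hy⟩
  obtain ⟨⟨p0, y0⟩, ⟨hp0, hy0⟩, hmax⟩ := (isCompact_Icc.prod isCompact_Icc).exists_isMaxOn hne hcont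
  simp only at hp0 hy0
  have hmax' : ∀ q : ℝ, ∀ t ∈ Icc (-Y) Y,
      w q t + (M + δ) * t ^ 2 / 2 ≤ w p0 y0 + (M + δ) * y0 ^ 2 / 2 := by
    intro q t ht
    have hP : Function.Periodic (fun q => w q t) 8 := fun q => hper q t ht
    obtain ⟨q', hq', hqe⟩ := hP.exists_mem_Ico₀ (by norm_num) q
    have hqe' : w q t = w q' t := hqe
    have h1 : w q' t + (M + δ) * t ^ 2 / 2 ≤ w p0 y0 + (M + δ) * y0 ^ 2 / 2 :=
      hmax (show ((q', t) : ℝ × ℝ) ∈ Icc 0 8 ×ˢ Icc (-Y) Y from ⟨Ico_subset_Icc_self hq', ht⟩)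
    rw [hqe']
    exact h1
  have hK : 0 ≤ M + δ := by linarith
  have hy0sq : y0 ^ 2 ≤ Y ^ 2 := by nlinarith [hy0.1, hy0.2]
  have key : w p0 y0 ≤ A := by
    by_contra hcon
    have hya : y0 ≠ -Y := fun h => hcon (by rw [h]; exact (hb p0).1)
    have hyb : y0 ≠ Y := fun h => hcon (by rw [h]; exact (hb p0).2)
    have hyI : y0 ∈ Ioo (-Y) Y := ⟨lt_of_le_of_ne hy0.1 (Ne.symm hya), lt_of_le_of_ne hy0.2 hyb⟩
    refine maxP_interior (r := 1) (Y := Y) (w := w) (w1 := w1) (w2 := w2) (v1 := v1) (v2 := v2)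
      (M := M) (c := c y0) one_pos hyI hδ (hc y0 hy0)
      (fun q _ => hp1 q y0 hyI) (hp2 p0 y0 hyI)
      (fun t ht => hy1 p0 t ht) (fun t ht => hy2 p0 t ht) (heq p0 y0 hyI) ?_ ?_
    · intro q _
      have h1 := hmax' q y0 hy0
      linarith
    · intro t ht
      exact hmax' p0 t (Ioo_subset_Icc_self ht)
  have h1 := hmax' p y hy
  have h2 : 0 ≤ (M + δ) * y ^ 2 / 2 := by positivity
  have h3 : (M + δ) * y0 ^ 2 / 2 ≤ (M + δ) * Y ^ 2 / 2 := by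
    have := mul_le_mul_of_nonneg_left hy0sq hK
    linarith
  linarith

/-- interpolation: `|w'| ≤ A / Y + 2 Y M` if `|w| ≤ A`, `|w''| ≤ M` on `[-Y, Y]` -/
theorem interp {E : Type} [NormedAddCommGroup E] [NormedSpace ℝ E] {Y : ℝ} (hY : 0 < Y)
    {w v s : ℝ → E} {A M : ℝ}
    (hw : ∀ y ∈ Icc (-Y) Y, HasDerivWithinAt w (v y) (Icc (-Y) Y) y)
    (hv : ∀ y ∈ Icc (-Y) Y, HasDerivWithinAt v (s y) (Icc (-Y) Y) y)
    (hA : ∀ y ∈ Icc (-Y) Y, ‖w y‖ ≤ A) (hM : ∀ y ∈ Icc (-Y) Y, ‖s y‖ ≤ M) :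
    ∀ y ∈ Icc (-Y) Y, ‖v y‖ ≤ A / Y + 2 * Y * M := by
  intro y0 hy0
  have hM0 : 0 ≤ M := (norm_nonneg _).trans (hM y0 hy0)
  have hv1 : ∀ x ∈ Icc (-Y) Y, ‖v x - v y0‖ ≤ 2 * Y * M := by
    intro x hx
    have h1 := (convex_Icc (-Y) Y).norm_image_sub_le_of_norm_hasDerivWithin_le hv hM hy0 hx
    have h2 : ‖x - y0‖ ≤ 2 * Y := by
      rw [Real.norm_eq_abs, abs_le]
      exact ⟨by linarith [hx.1, hy0.2], by linarith [hx.2, hy0.1]⟩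
    calc ‖v x - v y0‖ ≤ M * ‖x - y0‖ := h1
      _ ≤ M * (2 * Y) := mul_le_mul_of_nonneg_left h2 hM0
      _ = 2 * Y * M := by ring
  have hg : ∀ x ∈ Icc (-Y) Y,
      HasDerivWithinAt (fun x => w x - x • v y0) (v x - v y0) (Icc (-Y) Y) x := by
    intro x hx
    have h1 : HasDerivWithinAt (fun x : ℝ => x • v y0) ((1 : ℝ) • v y0) (Icc (-Y) Y) x :=
      (hasDerivWithinAt_id x _).smul_const (v y0)
    rw [one_smul] at h1
    exact (hw x hx).sub h1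
  have hlo : (-Y) ∈ Icc (-Y) Y := ⟨le_refl _, by linarith⟩
  have hhi : Y ∈ Icc (-Y) Y := ⟨by linarith, le_refl _⟩
  have h3 : ‖(w Y - Y • v y0) - (w (-Y) - (-Y) • v y0)‖ ≤ 2 * Y * M * ‖Y - -Y‖ :=
    (convex_Icc (-Y) Y).norm_image_sub_le_of_norm_hasDerivWithin_le hg hv1 hlo hhi
  have h4 : ‖Y - -Y‖ = 2 * Y := by
    rw [Real.norm_eq_abs, abs_of_pos (by linarith)]
    ring
  rw [h4] at h3
  have h5 : (w Y - Y • v y0) - (w (-Y) - (-Y) • v y0) = (w Y - w (-Y)) - (2 * Y) • v y0 := by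
    rw [neg_smul, two_mul, add_smul]
    abel
  rw [h5] at h3
  have h6 : ‖(2 * Y) • v y0‖ ≤ A + A + 2 * Y * M * (2 * Y) := by
    have h7 : (2 * Y) • v y0 = (w Y - w (-Y)) - ((w Y - w (-Y)) - (2 * Y) • v y0) := by abel
    rw [h7]
    refine (norm_sub_le _ _).trans (add_le_add ?_ h3)
    exact (norm_sub_le _ _).trans (add_le_add (hA Y hhi) (hA (-Y) hlo))
  rw [norm_smul, Real.norm_eq_abs, abs_of_pos (by linarith : (0 : ℝ) < 2 * Y)] at h6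
  have h8 : ‖v y0‖ ≤ (A + A + 2 * Y * M * (2 * Y)) / (2 * Y) := by
    rw [le_div_iff₀ (by linarith)]
    linarith
  refine h8.trans (le_of_eq ?_)
  field_simp
  ring

end P229.D1
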